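import Mathlib.FieldTheory.Finite.Basic
import Mathlib.LinearAlgebra.LinearIndependent.Lemmas
import Mathlib.FieldTheory.Fixed
import Vale.Agent.P240.MathlibUsed

/-!
Fixed points of semilinear maps of prime order (Hilbert's Theorem 90).
-/

set_option autoImplicit false

namespace Vale.Agent.P240.R2.H630

section
variable {F : Type*} [Field F]

/-- the coefficients of the iterates of `t ↦ c σ(t)` -/
lemma iter_form (σ : RingAut F) (c : F) (k : ℕ) (t : F) :
    (fun t => c * σ t)^[k] t = (∏ j ∈ Finset.range k, (σ ^ j) c) * (σ ^ k) t := by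
  induction k generalizing t with
  | zero => simp
  | succ k ih =>
    rw [Function.iterate_succ, Function.comp_apply, ih, Finset.prod_range_succ, map_mul]
    have e1 : (σ ^ k) (σ t) = (σ ^ (k + 1)) t := by rw [pow_succ, RingAut.mul_apply]
    rw [e1]
    ring

/-- a semilinear map of order `p` on `F` that is not linear has a nonzero fixed point -/
theorem exists_fixed {p : ℕ} (hp : p.Prime) {σ : RingAut F} (hσ : σ ≠ 1) (hσp : σ ^ p = 1) {c : F}
    (hc : ∀ t, (fun t => c * σ t)^[p] t = t) : ∃ t : F, t ≠ 0 ∧ c * σ t = t := by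
  have : Fact p.Prime := ⟨hp⟩
  have hord : orderOf σ = p := orderOf_eq_prime hσp hσ
  set φ : F → F := fun t => c * σ t with hφ
  have hφadd : ∀ a b, φ (a + b) = φ a + φ b := by
    intro a b
    simp only [hφ, map_add, mul_add]
  have hφsum : ∀ (s : Finset ℕ) (g : ℕ → F), φ (∑ k ∈ s, g k) = ∑ k ∈ s, φ (g k) := by
    intro s g
    simp only [hφ, map_sum, Finset.mul_sum]
  by_contra hcon
  push Not at hcon
  have hs : ∀ t, ∑ k ∈ Finset.range p, φ^[k] t = 0 := by
    intro t
    by_contra h0
    apply hcon _ h0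
    change φ (∑ k ∈ Finset.range p, φ^[k] t) = _
    rw [hφsum]
    have e1 : ∀ k, φ (φ^[k] t) = φ^[k + 1] t := fun k => by
      rw [Function.iterate_succ_apply']
    simp only [e1]
    have e2 := Finset.sum_range_succ (fun k => φ^[k] t) p
    have e3 := Finset.sum_range_succ' (fun k => φ^[k] t) p
    rw [e2] at e3
    rw [hc, Function.iterate_zero_apply] at e3
    exact (add_right_cancel e3).symm
  have hli := (linearIndependent_monoidHom F F).comp
    (fun k : Fin p => ((σ ^ (k : ℕ) : RingAut F) : F ≃+* F).toMonoidHom) (by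
      intro a b hab
      have h1 : σ ^ (a : ℕ) = σ ^ (b : ℕ) := by
        ext t
        exact DFunLike.congr_fun hab t
      have h2 := pow_injOn_Iio_orderOf (x := σ) (by rw [hord]; exact a.2) (by rw [hord]; exact b.2)
        h1
      exact Fin.ext h2)
  rw [Fintype.linearIndependent_iff] at hli
  have h1 := hli (fun k => ∏ j ∈ Finset.range (k : ℕ), (σ ^ j) c) (by
    funext t
    have h2 := hs t
    rw [Finset.sum_apply, Pi.zero_apply]
    rw [← Fin.sum_univ_eq_sum_range (fun k => φ^[k] t) p] at h2
    rw [← h2]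
    refine Finset.sum_congr rfl fun k _ => ?_
    rw [hφ, iter_form]
    rfl) ⟨0, hp.pos⟩
  simp at h1

end

end Vale.Agent.P240.R2.H630
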