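import Vale.Agent.P240.R2.H630.Reg
import Vale.Agent.P240.R2.H630.Hil
import Vale.Agent.P240.R2.H164.EX2
import Vale.Agent.P240.R2.H487.EDefs

/-!
`LocTopF` for groups given by Chevalley's relations, odd primes `p`, for a subgroup `A` of `T` that
separates the roots and contains all diagonal automorphisms of order `p`.
-/

set_option autoImplicit false

namespace Vale.Agent.P240.R2.H630

open Subgroup Vale.Agent.P240.K Vale.Agent.P240.H195 Vale.Agent.P240.R2.H986.X
  Vale.Agent.P240.R2.H986.X.CS Vale.Agent.P240.R2.H164.EX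
open Vale.Agent.P240.R2.H487 (LocTopF)

universe u v

section
variable {ι : Type*} {F : Type*} [Field F] {L : Type*} [Group L] {C : RC ι} {x : ι → F → L}
  {A : Subgroup L} {p : ℕ}

/-- `A ≤ T` separates the roots and contains all diagonal automorphisms of order `p` -/
structure Full (C : RC ι) (x : ι → F → L) (p : ℕ) (A : Subgroup L) : Prop extends Sep C x p A where
  ab : ∀ a ∈ A, ∀ b ∈ A, a * b = b * a
  pow : ∀ a ∈ A, a ^ p = 1
  diag : ∀ c : ι → F, (∀ i, C.simp i → c i ^ p = 1) → ∃ a ∈ A, ∀ i, C.simp i → ∀ t,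
    a * x i t * a⁻¹ = x i (c i * t) ∧ a * x (C.neg i) t * a⁻¹ = x (C.neg i) ((c i)⁻¹ * t)

/-- an automorphism of order `p` that acts by scalars is given by an element of `A` -/
theorem Full.inner (hA : Full C x p A) (h : CS C x) {f : MulAut L} {c : ι → F}
    (hf : Al C x f (1 : RingAut F) c) (hfp : f ^ p = 1) : ∃ a ∈ A, f = MulAut.conj a := by
  have h1 : ∀ i, C.simp i → c i ^ p = 1 := by
    intro i hi
    obtain ⟨-, h2⟩ := Al_pow hf p i hi
    have h3 := (h2 1).1
    rw [hfp, MulAut.one_apply, RingAut.one_apply, mul_one] at h3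
    exact (h.x_inj h3).symm
  obtain ⟨a, ha, h2⟩ := hA.diag c h1
  refine ⟨a, ha, ext_simple h fun i hi t => ?_⟩
  obtain ⟨-, h3⟩ := hf i hi
  rw [(h3 t).1, (h3 t).2, MulAut.conj_apply, MulAut.conj_apply, (h2 i hi t).1, (h2 i hi t).2,
    RingAut.one_apply]
  exact ⟨rfl, rfl⟩

/-- a field automorphism of order `p` has fixed points on the simple root groups -/
theorem exists_fixed_root [hp : Fact p.Prime] (h : CS C x) {f : MulAut L} {σ : RingAut F}
    {c : ι → F} (hf : Al C x f σ c) (hfp : f ^ p = 1) (hσ : σ ≠ 1) {i : ι} (hi : C.simp i) :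
    ∃ t : F, t ≠ 0 ∧ f (x i t) = x i t := by
  obtain ⟨h0, h1⟩ := hf i hi
  have key : ∀ k t, (f ^ k) (x i t) = x i ((fun t => c i * σ t)^[k] t) := by
    intro k
    induction k with
    | zero => intro t; simp
    | succ k ih =>
      intro t
      rw [pow_succ, MulAut.mul_apply, (h1 t).1, ih, Function.iterate_succ, Function.comp_apply]
  have hσp : σ ^ p = 1 := by
    have h2 : (f ^ p, σ ^ p) ∈ AG C x := pow_mem (show (f, σ) ∈ AG C x from ⟨c, hf⟩) p
    obtain ⟨c', hc'⟩ := h2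
    change Al C x (f ^ p) (σ ^ p) c' at hc'
    rw [hfp] at hc'
    have h4 := (hc' i hi).2
    have h7 : ∀ s, c' i * (σ ^ p) s = s := by
      intro s
      apply h.x_inj (i := i)
      rw [← (h4 s).1, MulAut.one_apply]
    have h8 : c' i = 1 := by
      have := h7 1
      rwa [map_one, mul_one] at this
    ext s
    have h9 := h7 s
    rw [h8, one_mul] at h9
    rw [h9, RingAut.one_apply]
  obtain ⟨t, ht, h2⟩ := exists_fixed hp.out hσ hσp (c := c i) (fun t => by
    have h3 := key p t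
    rw [hfp, MulAut.one_apply] at h3
    exact (h.x_inj h3).symm)
  exact ⟨t, ht, by rw [(h1 t).1, h2]⟩

end

section
variable {ι : Type*} {F : Type*} [Field F] [Finite F] [Finite ι] {G : Type u} [Group G] [Finite G]
  {L : Subgroup G} {C : RC ι} {x : ι → F → L} {A : Subgroup L} {p : ℕ} [hp : Fact p.Prime]
  {r : ℕ} [hr : Fact r.Prime] [CharP F r]

/-- **`LocTopF`** -/
theorem locTopF_full (𝕜 : Type v) [Field 𝕜] (h : CS C x) (hA : Full C x p A) (hpr : p ≠ r)
    (hp2 : p ≠ 2) (hcen : ∀ g : L, (∀ y, g * y = y * g) → g = 1) : LocTopF 𝕜 p L := by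
  classical
  have hcyc : IsCyclic (RingAut F) := ff_cyclic
  have hfin : Finite (RingAut F) := Finite.of_injective (fun f : RingAut F => (f : F → F))
    DFunLike.coe_injective
  obtain ⟨hb, -, -, hUp⟩ := h.data (r := r) hcen
  obtain ⟨i₀, hi₀⟩ := C.ex
  have hAne : A ≠ ⊥ := by
    intro h0
    apply hA.reg i₀
    intro a ha t
    rw [h0, mem_bot] at ha
    rw [ha]
    group
  set A₀ : Subgroup G := A.map L.subtype with hA₀
  have hA₀L : A₀ ≤ L := by
    rw [hA₀]
    exact map_subtype_le A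
  have hA₀ne : A₀ ≠ ⊥ := by
    intro h0
    apply hAne
    rwa [hA₀, Subgroup.map_eq_bot_iff_of_injective _ L.subtype_injective] at h0
  have hA₀S : A₀ ∈ ApS p G := by
    refine ⟨hA₀ne, ?_, ?_⟩
    · rintro _ ⟨a, ha, rfl⟩ _ ⟨b, hb', rfl⟩
      rw [← map_mul, ← map_mul, hA.ab a ha b hb']
    · rintro _ ⟨a, ha, rfl⟩
      rw [← map_pow, hA.pow a ha, map_one]
  refine ⟨{A₀}, ⟨A₀, rfl⟩, ?_, ?_⟩
  · rintro _ rfl
    exact ⟨hA₀L, hA₀S⟩
  intro E hE hEn E₁ hE₁ hA₁ hE₁c
  obtain ⟨_, rfl, hA₁⟩ := hA₁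
  obtain ⟨hEne, hEab, hEp⟩ := hE
  -- the action
  set φ : E →* MulAut L := L.normalizerMonoidHom.comp (Subgroup.inclusion hEn) with hφ
  have hφ1 : ∀ (e : E) (y : L), ((φ e y : L) : G) = e.1 * y.1 * e.1⁻¹ := fun e y => rfl
  have hφp : ∀ e : E, (φ e) ^ p = 1 := by
    intro e
    rw [← map_pow]
    have : e ^ p = 1 := Subtype.ext (hEp e.1 e.2)
    rw [this, map_one]
  have hφA : ∀ (e : E), ∀ a ∈ A, φ e a = a := by
    intro e a ha
    apply Subtype.ext
    rw [hφ1]
    have h1 : (a : G) ∈ E := hE₁ (hA₁ ⟨a, ha, rfl⟩)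
    rw [hEab e.1 e.2 a.1 h1]
    group
  have hφal : ∀ e : E, ∃ (σ : RingAut F) (c : ι → F), Al C x (φ e) σ c := fun e =>
    al_of_fix h hA.toSep hpr hp2 hcen (hφA e) (hφp e)
  choose σ c hal using hφal
  have hAG : ∀ e : E, (φ e, σ e) ∈ AG C x := fun e => ⟨c e, hal e⟩
  have huniq : ∀ (f : MulAut L) (τ τ' : RingAut F), (f, τ) ∈ AG C x → (f, τ') ∈ AG C x →
      τ = τ' := by
    intro f τ τ' h1 h2
    obtain ⟨d, hd⟩ := h1
    obtain ⟨d', hd'⟩ := h2
    change Al C x f τ d at hd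
    change Al C x f τ' d' at hd'
    have h3 := (hd i₀ hi₀).2
    have h4 := (hd' i₀ hi₀).2
    have h5 : ∀ t, d i₀ * τ t = d' i₀ * τ' t := by
      intro t
      apply h.x_inj (i := i₀)
      rw [← (h3 t).1, (h4 t).1]
    have h6 := h5 1
    rw [map_one, map_one, mul_one, mul_one] at h6
    ext t
    have h7 := h5 t
    rw [← h6] at h7
    exact mul_left_cancel₀ (hd i₀ hi₀).1 h7
  have hσmul : ∀ e e' : E, σ (e * e') = σ e * σ e' := by
    intro e e'
    refine huniq (φ (e * e')) _ _ (hAG _) ?_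
    rw [map_mul]
    exact mul_mem (hAG e) (hAG e')
  let ψ : E →* RingAut F := MonoidHom.mk' σ hσmul
  have hψ : ∀ e, ψ e = σ e := fun e => rfl
  -- the linear elements
  have hlin : ∀ e : E, ψ e = 1 → ∃ a ∈ A₀, a⁻¹ * e.1 ∈ centralizer (L : Set G) := by
    intro e he
    have h1 := hal e
    rw [← hψ, he] at h1
    obtain ⟨a, ha, h2⟩ := hA.inner h h1 (hφp e)
    refine ⟨a, ⟨a, ha, rfl⟩, ?_⟩
    rw [mem_centralizer_iff]
    intro y hy
    have h3 := congrArg Subtype.val (DFunLike.congr_fun h2 ⟨y, hy⟩)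
    rw [hφ1] at h3
    rw [MulAut.conj_apply] at h3
    change e.1 * y * e.1⁻¹ = a.1 * y * a.1⁻¹ at h3
    have h4 : e.1 * y = a.1 * y * a.1⁻¹ * e.1 := by rw [← h3]; group
    calc y * (a.1⁻¹ * e.1) = a.1⁻¹ * (a.1 * y * a.1⁻¹ * e.1) := by group
      _ = a.1⁻¹ * e.1 * y := by rw [← h4]; group
  have hcenφ : ∀ e : E, φ e = 1 → e.1 ∈ centralizer (L : Set G) := by
    intro e he
    rw [mem_centralizer_iff]
    intro y hy
    have h3 := congrArg Subtype.val (DFunLike.congr_fun he ⟨y, hy⟩)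
    rw [hφ1, MulAut.one_apply] at h3
    change e.1 * y * e.1⁻¹ = y at h3
    rw [mul_inv_eq_iff_eq_mul] at h3
    exact h3.symm
  -- the choice of `b`
  obtain ⟨b, hb1⟩ : ∃ b : E, (b = 1 ∧ ((∀ e : E, ψ e = 1) ∨ ∃ e : E, e.1 ∈ E₁ ∧ ψ e ≠ 1)) ∨
      (ψ b ≠ 1 ∧ ∀ e : E, e.1 ∈ E₁ → ψ e = 1) := by
    by_cases h1 : ∃ e : E, e.1 ∈ E₁ ∧ ψ e ≠ 1
    · exact ⟨1, Or.inl ⟨rfl, Or.inr h1⟩⟩
    · push Not at h1
      by_cases h2 : ∀ e : E, ψ e = 1
      · exact ⟨1, Or.inl ⟨rfl, Or.inl h2⟩⟩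
      · push Not at h2
        obtain ⟨b, hb⟩ := h2
        exact ⟨b, Or.inr ⟨hb, h1⟩⟩
  have hbE' : b.1 ∈ E := b.2
  have hbp : b.1 ^ p = 1 := hEp _ b.2
  set B : Subgroup G := (E ⊓ centralizer (L : Set G)) ⊔ zpowers b.1 with hB
  have hBE : B ≤ E := sup_le inf_le_left (by rw [zpowers_le]; exact hbE')
  have hCB : E ⊓ centralizer (L : Set G) ≤ B := le_sup_left
  have hbB : b.1 ∈ B := (le_sup_right : zpowers b.1 ≤ B) (mem_zpowers _)
  -- elements of `E₁` in `C(L) B`
  have hnorm : zpowers b.1 ≤ normalizer (centralizer (L : Set G) : Set G) := by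
    rw [zpowers_le]
    have hbn : b.1 ∈ normalizer (L : Set G) := hEn hbE'
    rw [mem_normalizer_iff] at hbn ⊢
    intro z
    rw [mem_centralizer_iff, mem_centralizer_iff]
    constructor
    · intro hz y hy
      have h1 : b.1⁻¹ * y * b.1 ∈ L := by
        rw [hbn]
        have e1 : b.1 * (b.1⁻¹ * y * b.1) * b.1⁻¹ = y := by group
        rwa [e1]
      have h2 := hz _ h1
      calc y * (b.1 * z * b.1⁻¹) = b.1 * ((b.1⁻¹ * y * b.1) * z) * b.1⁻¹ := by group
        _ = b.1 * z * b.1⁻¹ * y := by rw [h2]; group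
    · intro hz y hy
      have h1 : b.1 * y * b.1⁻¹ ∈ L := (hbn y).1 hy
      have h2 := hz _ h1
      calc y * z = b.1⁻¹ * ((b.1 * y * b.1⁻¹) * (b.1 * z * b.1⁻¹)) * b.1 := by group
        _ = z * y := by rw [h2]; group
  have htriv : ∀ e ∈ E₁, e ∈ centralizer (L : Set G) → e = 1 := by
    intro e he he'
    have h1 : e ∈ E₁ ⊓ centralizer (L : Set G) := ⟨he, he'⟩
    rwa [hE₁c, mem_bot] at h1
  have hF2 : ∀ e ∈ E₁, e ∈ centralizer (L : Set G) ⊔ B → e = 1 := by
    intro e he he'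
    have h1 : centralizer (L : Set G) ⊔ B ≤ zpowers b.1 ⊔ centralizer (L : Set G) := by
      rw [hB]
      exact sup_le le_sup_right (sup_le (inf_le_right.trans le_sup_right) le_sup_left)
    have h2 := h1 he'
    rw [← SetLike.mem_coe, Subgroup.coe_mul_of_left_le_normalizer_right _ _ hnorm] at h2
    obtain ⟨y, hy, z, hz, hyz⟩ := h2
    have hyz : y * z = e := hyz
    rcases hb1 with ⟨hb1, -⟩ | ⟨hb1, hb2⟩
    · rw [hb1] at hy
      have h3 : y = 1 := by
        have : y ∈ zpowers (1 : G) := hy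
        rwa [zpowers_one_eq_bot, mem_bot] at this
      rw [h3, one_mul] at hyz
      exact htriv e he (hyz ▸ hz)
    · obtain ⟨k, rfl⟩ := mem_zpowers_iff.1 hy
      have hzE : z ∈ E := by
        have h3 : z = (b.1 ^ k)⁻¹ * e := by rw [← hyz]; group
        rw [h3]
        exact mul_mem (inv_mem (zpow_mem hbE' k)) (hE₁ he)
      have h3 : φ ⟨z, hzE⟩ = 1 := by
        refine MulEquiv.ext fun y => ?_
        apply Subtype.ext
        rw [hφ1, MulAut.one_apply]
        have h4 := (mem_centralizer_iff.1 hz) y.1 y.2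
        change z * y.1 * z⁻¹ = y.1
        rw [← h4]
        group
      have h4 : ψ ⟨z, hzE⟩ = 1 := by
        refine huniq 1 _ _ ?_ (one_mem _)
        have h5 := hAG ⟨z, hzE⟩
        rw [h3] at h5
        exact h5
      have h5 : ψ b ^ k = 1 := by
        have h6 : b ^ k * ⟨z, hzE⟩ = (⟨e, hE₁ he⟩ : E) := Subtype.ext (by
          simpa using hyz)
        have h7 := congrArg ψ h6
        rw [map_mul, h4, mul_one, map_zpow, hb2 ⟨e, hE₁ he⟩ he] at h7
        exact h7
      have h6 : orderOf (ψ b) = p := by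
        refine orderOf_eq_prime ?_ hb1
        rw [← map_pow]
        have : b ^ p = 1 := Subtype.ext (by simpa using hbp)
        rw [this, map_one]
      have h7 : (p : ℤ) ∣ k := by
        rw [← h6]
        exact orderOf_dvd_iff_zpow_eq_one.2 h5
      obtain ⟨m, rfl⟩ := h7
      have h8 : b.1 ^ ((p : ℤ) * m) = 1 := by
        rw [zpow_mul, zpow_natCast, hbp, one_zpow]
      rw [h8, one_mul] at hyz
      exact htriv e he (hyz ▸ hz)
  -- generation
  have hlinB : ∀ e : E, ψ e = 1 → e.1 ∈ E₁ ⊔ B := by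
    intro e he
    obtain ⟨a, ha, h1⟩ := hlin e he
    have h2 : e.1 = a * (a⁻¹ * e.1) := by group
    have haE : a ∈ E := hE₁ (hA₁ ha)
    rw [h2]
    exact mul_mem (mem_sup_left (hA₁ ha))
      (mem_sup_right (hCB (mem_inf.2 ⟨mul_mem (inv_mem haE) e.2, h1⟩)))
  have hψp : ∀ e : E, ψ e ^ p = 1 := by
    intro e
    rw [← map_pow]
    have : e ^ p = 1 := Subtype.ext (hEp e.1 e.2)
    rw [this, map_one]
  have hgen : ∀ b' : E, b'.1 ∈ E₁ ⊔ B → ψ b' ≠ 1 → ∀ e : E, e.1 ∈ E₁ ⊔ B := by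
    intro b' hb' hne e
    obtain ⟨k, hk⟩ := mem_zpowers_cyc hp.out (hψp b') hne (hψp e)
    have hk : ψ b' ^ k = ψ e := hk
    have h1 : ψ (e * (b' ^ k)⁻¹) = 1 := by
      rw [map_mul, map_inv, map_zpow, hk, mul_inv_cancel]
    have h2 := hlinB _ h1
    have h3 : e.1 = (e * (b' ^ k)⁻¹ : E).1 * b'.1 ^ k := by
      simp
    rw [h3]
    exact mul_mem h2 (zpow_mem hb' k)
  have hF3 : E₁ ⊔ B = E := by
    refine le_antisymm (sup_le hE₁ hBE) fun e he => ?_
    rcases hb1 with ⟨-, h1 | ⟨e', he', h1⟩⟩ | ⟨h1, -⟩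
    · exact hlinB ⟨e, he⟩ (h1 _)
    · exact hgen e' (mem_sup_left he') h1 ⟨e, he⟩
    · exact hgen b (mem_sup_right hbB) h1 ⟨e, he⟩
  have hcomm : ∀ e ∈ E, ∀ e' ∈ E, e * e' = e' * e := hEab
  have hE₁B : E₁ ≤ centralizer (B : Set G) := by
    intro e he
    rw [mem_centralizer_iff]
    intro y hy
    exact hcomm y (hBE hy) e (hE₁ he)
  have hE₁S : E₁ ∈ ApS p G := by
    refine ⟨?_, fun y hy z hz => hcomm y (hE₁ hy) z (hE₁ hz), fun y hy => hEp y (hE₁ hy)⟩
    intro h0
    rw [h0, le_bot_iff] at hA₁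
    exact hA₀ne hA₁
  -- the group `Y`
  set Y : Subgroup G := (UU C x).map L.subtype ⊓ centralizer {b.1} with hY
  have hYr : IsPGroup r Y := (hUp.map L.subtype).to_le inf_le_left
  have hYsol : Group.IsSolvable Y := by
    have : Group.IsNilpotent Y := hYr.isNilpotent
    infer_instance
  have hYp : ¬ p ∣ Nat.card Y := by
    obtain ⟨k, hk⟩ := IsPGroup.iff_card.1 hYr
    rw [hk]
    intro h5
    exact hpr ((Nat.prime_dvd_prime_iff_eq hp.out hr.out).1 (hp.out.dvd_of_dvd_pow h5))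
  have hUinv : ∀ e : E, ∀ u ∈ UU C x, φ e u ∈ UU C x := by
    intro e u hu
    refine closure_induction (p := fun u _ => φ e u ∈ UU C x) ?_ ?_ ?_ ?_ hu
    · rintro _ ⟨j, t, hj, rfl⟩
      obtain ⟨d, -, h1⟩ := H401.X7.al_all h (hal e) j
      rw [(h1 t).1]
      exact x_mem_UU hj _
    · rw [map_one]
      exact one_mem _
    · intro a b _ _ ha hb
      rw [map_mul]
      exact mul_mem ha hb
    · intro a _ ha
      rw [map_inv]
      exact inv_mem ha
  have hYn : ∀ e ∈ E₁, ∀ y ∈ Y, e * y * e⁻¹ ∈ Y := by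
    intro e he y hy
    obtain ⟨⟨u, hu, rfl⟩, hy2⟩ := hy
    have heE := hE₁ he
    refine ⟨⟨φ ⟨e, heE⟩ u, hUinv _ u hu, rfl⟩, ?_⟩
    have hy2' : (L.subtype u) ∈ centralizer ({b.1} : Set G) := hy2
    rw [mem_centralizer_singleton_iff] at hy2'
    change e * (L.subtype u) * e⁻¹ ∈ centralizer ({b.1} : Set G)
    rw [mem_centralizer_singleton_iff]
    have h1 := hcomm b.1 hbE' e heE
    have h2 := hcomm b.1 hbE' e⁻¹ (inv_mem heE)
    calc e * (L.subtype u) * e⁻¹ * b.1 = e * (L.subtype u) * (e⁻¹ * b.1) := by group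
      _ = e * ((L.subtype u) * b.1) * e⁻¹ := by rw [← h2]; group
      _ = (e * b.1) * (L.subtype u) * e⁻¹ := by rw [hy2']; group
      _ = b.1 * (e * (L.subtype u) * e⁻¹) := by rw [← h1]; group
  have hYf : ∀ e ∈ E₁, (∀ y ∈ Y, e * y = y * e) → e = 1 := by
    intro e he hfix
    have heE := hE₁ he
    have hxfix : ∀ u ∈ UU C x, b.1 * (u : G) = u * b.1 → φ ⟨e, heE⟩ u = u := by
      intro u hu hub
      have h1 : (u : G) ∈ Y := by
        refine ⟨⟨u, hu, rfl⟩, ?_⟩
        change (u : G) ∈ centralizer ({b.1} : Set G)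
        rw [mem_centralizer_singleton_iff]
        exact hub.symm
      apply Subtype.ext
      rw [hφ1]
      change e * (u : G) * e⁻¹ = u
      rw [hfix _ h1]
      group
    -- it is enough to show that `φ e = 1`
    have hfin : φ ⟨e, heE⟩ = 1 → e = 1 := fun h1 => htriv e he (hcenφ _ h1)
    apply hfin
    have hal' := hal ⟨e, heE⟩
    rcases hb1 with ⟨hb1, -⟩ | ⟨hb1, hb2⟩
    · have h1 : ∀ i, C.simp i → ∀ t, c ⟨e, heE⟩ i * σ ⟨e, heE⟩ t = t := by
        intro i hi t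
        have h2 := hxfix (x i t) (x_mem_UU (C.simp_pos i hi) t) (by
          rw [hb1]
          simp)
        rw [((hal' i hi).2 t).1] at h2
        exact h.x_inj h2
      have h2 : ∀ i, C.simp i → c ⟨e, heE⟩ i = 1 := by
        intro i hi
        have h3 := h1 i hi 1
        rwa [map_one, mul_one] at h3
      have h3 : ∀ t, σ ⟨e, heE⟩ t = t := by
        intro t
        have h4 := h1 i₀ hi₀ t
        rwa [h2 i₀ hi₀, one_mul] at h4
      refine ext_simple h fun i hi t => ?_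
      rw [((hal' i hi).2 t).1, ((hal' i hi).2 t).2, h2 i hi, h3, inv_one, one_mul,
        MulAut.one_apply, MulAut.one_apply]
      exact ⟨rfl, rfl⟩
    · have h0 : σ ⟨e, heE⟩ = 1 := hb2 _ he
      have h2 : ∀ i, C.simp i → c ⟨e, heE⟩ i = 1 := by
        intro i hi
        obtain ⟨t, ht, h3⟩ := exists_fixed_root h (hal b) (hφp b) hb1 hi
        have h4 := hxfix (x i t) (x_mem_UU (C.simp_pos i hi) t) (by
          have h5 := congrArg Subtype.val h3
          rw [hφ1] at h5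
          exact mul_inv_eq_iff_eq_mul.1 h5)
        rw [((hal' i hi).2 t).1, h0, RingAut.one_apply] at h4
        exact mul_right_cancel₀ ht (by rw [one_mul]; exact h.x_inj h4)
      refine ext_simple h fun i hi t => ?_
      rw [((hal' i hi).2 t).1, ((hal' i hi).2 t).2, h2 i hi, h0, inv_one, one_mul,
        MulAut.one_apply, MulAut.one_apply, RingAut.one_apply]
      exact ⟨rfl, rfl⟩
  obtain ⟨α, ρ, hα⟩ := quillen_cycle (𝕜 := 𝕜) (Or.inr hE₁S) hYsol hYp hYn hYf
  have hYle : Y ≤ (L ⊔ E₁) ⊓ centralizer (B : Set G) := by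
    refine le_inf ?_ ?_
    · exact (inf_le_left.trans (map_subtype_le _)).trans le_sup_left
    · intro y hy
      obtain ⟨⟨u, hu, rfl⟩, hy2⟩ := hy
      have h1 : B ≤ centralizer ({(L.subtype u)} : Set G) := by
        rw [hB]
        refine sup_le ?_ ?_
        · intro z hz
          rw [mem_centralizer_singleton_iff]
          exact ((mem_centralizer_iff.1 (mem_inf.1 hz).2) u.1 u.2).symm
        · rw [zpowers_le, mem_centralizer_singleton_iff]
          have hy2' : (L.subtype u) ∈ centralizer ({b.1} : Set G) := hy2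
          rw [mem_centralizer_singleton_iff] at hy2'
          exact hy2'.symm
      rw [mem_centralizer_iff]
      intro z hz
      have h2 := h1 hz
      rw [mem_centralizer_singleton_iff] at h2
      exact h2
  refine ⟨B, hBE, hF3, ?_, hCB, E₁, le_inf le_sup_right hE₁B, hE₁S, ⟨A₀, rfl, hA₁⟩, ?_, rfl,
    le_rfl, α, ρ, ?_⟩
  · rw [eq_bot_iff]
    intro e he
    exact hF2 e he.1 (mem_sup_right he.2)
  · rw [eq_bot_iff]
    intro e he
    exact hF2 e he.1 he.2
  · exact r5_mono (sup_le hYle (le_inf le_sup_right hE₁B)) hα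

end

end Vale.Agent.P240.R2.H630
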