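import Vale.Agent.P240.R2.H630.E6a
import Vale.Agent.P240.R2.H630.Top
import Vale.Agent.P240.R2.H487.TF

/-!
**`LocTopF` for `E₆(q)`, `p = 3`, `9 ∣ q - 1`.**
-/

set_option autoImplicit false

namespace Vale.Agent.P240.R2.H630

open Subgroup CartanMatrix Vale.Agent.P240.K Vale.Agent.P240.H195 Vale.Agent.P240.R2.H986.X
  Vale.Agent.P240.R2.H986.X.CS Vale.Agent.P240.R2.H164.EX
open Vale.Agent.P240.R2.H165 (IsChevA)
open Vale.Agent.P240.R2.H487 (LocTopF TopFac)

universe u v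

section
variable {ι : Type*} {F : Type*} [Field F] {L M : Type*} [Group L] [Group M] {C : RC ι}
  {x : ι → F → L}

omit [Field F] in
lemma gr_map (f : L ≃* M) (q : ι → Prop) :
    gr (fun i t => f (x i t)) q = (gr x q).map f.toMonoidHom := by
  rw [gr, gr, MonoidHom.map_closure]
  congr 1
  ext y
  constructor
  · rintro ⟨i, t, hi, rfl⟩
    exact ⟨x i t, ⟨i, t, hi, rfl⟩, rfl⟩
  · rintro ⟨_, ⟨i, t, hi, rfl⟩, rfl⟩
    exact ⟨i, t, hi, rfl⟩

/-- transport of structure -/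
theorem CS.map (h : CS C x) (f : L ≃* M) : CS C (fun i t => f (x i t)) := by
  have hn : ∀ i t, nn C.neg (fun i t => f (x i t)) i t = f (nn C.neg x i t) := by
    intro i t
    simp only [nn, map_mul]
  refine ⟨fun i t u => ?_, fun i t e => ?_, fun i j hij hij' t u => ?_, fun i j => ?_, ?_, ?_⟩
  · rw [h.add, map_mul]
  · exact h.inj i t (f.injective (by rw [e, map_one]))
  · rw [gr_map, ← map_mul, ← map_inv, ← map_mul, ← map_inv, ← map_mul]
    exact ⟨_, h.comm i j hij hij' t u, rfl⟩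
  · obtain ⟨c, hc, h1⟩ := h.refl i j
    refine ⟨c, hc, fun t u ht => ?_⟩
    rw [hn, ← (h1 t u ht).1, ← (h1 t u ht).2]
    simp only [map_mul, map_inv, and_self]
  · rw [gr_map, h.gen, ← MonoidHom.range_eq_map, MonoidHom.range_eq_top]
    exact f.surjective
  · rw [gr_map, gr_map, ← Subgroup.map_inf _ _ _ f.injective, h.opp, Subgroup.map_bot]

end

section
variable {ι : Type} {F : Type} [Field F] {L : Type u} [Group L] {C : RC ι} {x : ι → F → L}
  {e : Fin 6 → ι} {m : ι → Fin 6 → ℤ}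

/-- the elements `t` of `T` with `t ^ 3 = 1` -/
def T3 (h : CS C x) (hcen : ∀ g : L, (∀ y, g * y = y * g) → g = 1) (p : ℕ) : Subgroup L where
  carrier := {t | t ∈ TT C x ∧ t ^ p = 1}
  one_mem' := ⟨one_mem _, one_pow p⟩
  mul_mem' := by
    rintro a b ⟨ha, ha'⟩ ⟨hb, hb'⟩
    refine ⟨mul_mem ha hb, ?_⟩
    have h1 : Commute a b := H684.XB.T_comm h hcen ha hb
    rw [h1.mul_pow, ha', hb', one_mul]
  inv_mem' := by
    rintro a ⟨ha, ha'⟩
    exact ⟨inv_mem ha, by rw [inv_pow, ha', inv_one]⟩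

/-- the matrix `3 E₆⁻¹` -/
lemma d6_sum (γ : Fin 6 → ℤ) (l : Fin 6) :
    ∑ k, (∑ i, γ i * H281EB.d6 i k) * E₆ l k = 3 * γ l := by
  have h1 : ∑ k, (∑ i, γ i * H281EB.d6 i k) * E₆ l k = ∑ i, γ i * ∑ k, H281EB.d6 i k * E₆ l k := by
    simp only [Finset.sum_mul, Finset.mul_sum]
    rw [Finset.sum_comm]
    exact Finset.sum_congr rfl fun i _ => Finset.sum_congr rfl fun k _ => by ring
  rw [h1]
  simp only [H281EB.d6_mul]
  rw [Finset.sum_eq_single l]
  · rw [if_pos rfl]; ring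
  · intro i _ hi
    rw [if_neg hi, mul_zero]
  · intro hl
    exact absurd (Finset.mem_univ l) hl

/-- elements of `T` -/
theorem exists_t (h : CS C x) (he : Function.Injective e) (hpr : ∀ i j, C.pr (e i) (e j) = E₆ i j)
    (hm : ∀ j k, C.pr j (e k) = ∑ l, m j l * E₆ l k) {η : Fˣ} (γ : Fin 6 → ℤ) :
    ∃ g ∈ TT C x, (∀ j u, g * x j u * g⁻¹ = x j (((η ^ (3 * ∑ l, γ l * m j l) : Fˣ) : F) * u)) ∧
      ∀ l u, g * x (e l) u * g⁻¹ = x (e l) (((η ^ (3 * γ l) : Fˣ) : F) * u) ∧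
        g * x (C.neg (e l)) u * g⁻¹ = x (C.neg (e l)) ((((η ^ (3 * γ l))⁻¹ : Fˣ) : F) * u) := by
  classical
  set a : Fin 6 → ℤ := fun k => ∑ i, γ i * H281EB.d6 i k with ha
  set t : ι → Fˣ := fun i => if hi : ∃ k, e k = i then η ^ a hi.choose else 1 with ht
  have ht' : ∀ k, t (e k) = η ^ a k := by
    intro k
    have h1 : ∃ k', e k' = e k := ⟨k, rfl⟩
    have h2 : h1.choose = k := he h1.choose_spec
    simp only [ht]
    rw [dif_pos h1, h2]
  set l₀ : List ι := (Finset.univ : Finset (Fin 6)).toList.map e with hl₀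
  set g : L := (l₀.map fun k => nn C.neg x k (t k : F) * (nn C.neg x k 1)⁻¹).prod with hg
  have hgT : g ∈ TT C x := by
    rw [hg]
    refine list_prod_mem ?_
    intro y hy
    obtain ⟨k, -, rfl⟩ := List.mem_map.1 hy
    exact h.h_mem (t k).ne_zero
  have hact : ∀ j u, g * x j u * g⁻¹ = x j ((((η ^ ∑ k, a k * C.pr j (e k)) : Fˣ) : F) * u) := by
    intro j u
    rw [hg, hh_list h]
    have h1 : (l₀.map fun k => t k ^ C.pr j k).prod = η ^ ∑ k, a k * C.pr j (e k) := by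
      rw [hl₀, List.map_map, Finset.prod_map_toList]
      have h2 : ∀ k : Fin 6, ((fun k => t k ^ C.pr j k) ∘ e) k = η ^ (a k * C.pr j (e k)) := by
        intro k
        rw [Function.comp_apply, ht', zpow_mul]
      rw [Finset.prod_congr rfl fun k _ => h2 k]
      exact prod_zpow_sum η Finset.univ fun k => a k * C.pr j (e k)
    rw [h1]
  refine ⟨g, hgT, fun j u => ?_, fun l u => ⟨?_, ?_⟩⟩
  · rw [hact]
    have h1 : ∑ k, a k * C.pr j (e k) = 3 * ∑ l, γ l * m j l := by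
      have h2 : ∑ k, a k * C.pr j (e k) = ∑ l, m j l * ∑ k, a k * E₆ l k := by
        simp only [hm, Finset.mul_sum]
        rw [Finset.sum_comm]
        exact Finset.sum_congr rfl fun i _ => Finset.sum_congr rfl fun k _ => by ring
      rw [h2, Finset.mul_sum]
      refine Finset.sum_congr rfl fun l _ => ?_
      rw [ha, d6_sum]
      ring
    rw [h1]
  · rw [hact]
    have h1 : ∑ k, a k * C.pr (e l) (e k) = 3 * γ l := by
      simp only [hpr]
      rw [ha, d6_sum]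
    rw [h1]
  · rw [hact]
    have h1 : ∑ k, a k * C.pr (C.neg (e l)) (e k) = -(3 * γ l) := by
      simp only [C.pr_neg, hpr, mul_neg, Finset.sum_neg_distrib]
      rw [ha, d6_sum]
    rw [h1, zpow_neg]

/-- **the group `T[3]`** of `E₆(q)`, `9 ∣ q - 1` -/
theorem full_E6 (h : CS C x) (hcen : ∀ g : L, (∀ y, g * y = y * g) → g = 1)
    (he : Function.Injective e) (hs : ∀ i, C.simp i ↔ ∃ l, e l = i)
    (hpr : ∀ i j, C.pr (e i) (e j) = E₆ i j)
    (hm : ∀ j k, C.pr j (e k) = ∑ l, m j l * E₆ l k) (hq : ∀ j, qf (m j) = 2)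
    (hm1 : ∀ j k, m k = m j → k = j) (hm2 : ∀ j k, m k = -m j → k = C.neg j)
    {η : Fˣ} (hη : orderOf η = 9) : Full C x 3 (T3 h hcen 3) := by
  classical
  have : Fact (Nat.Prime 3) := ⟨Nat.prime_three⟩
  set ω : Fˣ := η ^ 3 with hω
  have hωo : orderOf ω = 3 := by
    rw [hω, orderOf_pow' η (by norm_num), hη]
    norm_num
  have hpow : ∀ k : ℤ, η ^ (3 * k) = ω ^ k := by
    intro k
    rw [hω, zpow_mul]
    rfl
  have hω3 : ∀ k : ℤ, ω ^ k = 1 ↔ (3 : ℤ) ∣ k := by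
    intro k
    rw [← orderOf_dvd_iff_zpow_eq_one, hωo]
    rfl
  -- elements of order 3
  have key : ∀ γ : Fin 6 → ℤ, ∃ g ∈ T3 h hcen 3,
      (∀ j u, g * x j u * g⁻¹ = x j (((ω ^ (∑ l, γ l * m j l) : Fˣ) : F) * u)) ∧
      ∀ l u, g * x (e l) u * g⁻¹ = x (e l) (((ω ^ γ l : Fˣ) : F) * u) ∧
        g * x (C.neg (e l)) u * g⁻¹ = x (C.neg (e l)) ((((ω ^ γ l)⁻¹ : Fˣ) : F) * u) := by
    intro γ
    obtain ⟨g, hg, h1, h2⟩ := exists_t h he hpr hm (η := η) γ
    simp only [hpow] at h1 h2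
    refine ⟨g, ⟨hg, ?_⟩, h1, h2⟩
    refine H684.XB.eq_one_of_act h hcen fun j u => ?_
    rw [H684.XB.T_pow_act (h1 j) 3]
    have h3 : ((ω ^ (∑ l, γ l * m j l) : Fˣ) : F) ^ 3 = 1 := by
      rw [← Units.val_pow_eq_pow_val, ← zpow_natCast, ← zpow_mul,
        (hω3 _).2 (Dvd.intro_left (∑ l, γ l * m j l) (by norm_num)), Units.val_one]
    rw [h3, one_mul]
  refine ⟨⟨fun t ht => ht.1, ?_, ?_, ?_⟩, ?_, ?_, ?_⟩
  · rintro ⟨t, ht⟩
    refine ⟨1, Subtype.ext ?_⟩
    rw [SubmonoidClass.coe_pow, pow_one]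
    exact ht.2
  · intro j hj
    obtain ⟨l, hl⟩ := three_ndvd (hq j)
    obtain ⟨g, hg, h1, -⟩ := key (Pi.single l 1)
    have h2 := hj g hg 1
    rw [h1, mul_one] at h2
    have h3 := h.x_inj h2
    rw [Units.val_eq_one, hω3] at h3
    apply hl
    rwa [Finset.sum_eq_single l (fun k _ hk => by rw [Pi.single_eq_of_ne hk, zero_mul])
      (fun hl => absurd (Finset.mem_univ l) hl), Pi.single_eq_same, one_mul] at h3
  · intro j k hkj hkj'
    have h1 : ¬ ∀ i l, (3 : ℤ) ∣ m j l * m k i - m j i * m k l := by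
      intro h2
      rcases arith (hq j) (hq k) h2 with h3 | h3
      · exact hkj (hm1 j k h3)
      · exact hkj' (hm2 j k h3)
    push Not at h1
    obtain ⟨i, l, hil⟩ := h1
    obtain ⟨g, hg, h2, -⟩ := key (fun s => m j l * (if s = i then 1 else 0) -
      m j i * (if s = l then 1 else 0))
    have hsum : ∀ n : Fin 6 → ℤ, ∑ s, (m j l * (if s = i then 1 else 0) -
        m j i * (if s = l then 1 else 0)) * n s = m j l * n i - m j i * n l := by
      intro n
      simp only [sub_mul, Finset.sum_sub_distrib, mul_ite, mul_one, mul_zero, ite_mul, zero_mul,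
        Finset.sum_ite_eq', Finset.mem_univ, if_true]
    refine ⟨g, hg, fun t => ?_, 1, ?_⟩
    · rw [h2, hsum]
      have h3 : m j l * m j i - m j i * m j l = 0 := by ring
      rw [h3, zpow_zero, Units.val_one, one_mul]
    · rw [h2, hsum]
      intro h3
      have h4 := h.x_inj h3
      rw [mul_one, Units.val_eq_one, hω3] at h4
      exact hil h4
  · intro a ha b hb
    exact H684.XB.T_comm h hcen ha.1 hb.1
  · intro a ha
    exact ha.2
  · intro c hc
    have h1 : ∀ l, ∃ k : ℤ, c (e l) = ((ω ^ k : Fˣ) : F) := by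
      intro l
      have h2 : c (e l) ^ 3 = 1 := hc (e l) ((hs _).2 ⟨l, rfl⟩)
      have h3 : IsPrimitiveRoot (ω : F) 3 := by
        have h4 := IsPrimitiveRoot.orderOf ω
        rw [hωo] at h4
        exact IsPrimitiveRoot.coe_units_iff.2 h4
      obtain ⟨k, -, hk⟩ := h3.eq_pow_of_pow_eq_one h2
      exact ⟨k, by rw [zpow_natCast, Units.val_pow_eq_pow_val, hk]⟩
    choose γ hγ using h1
    obtain ⟨g, hg, -, h2⟩ := key γ
    refine ⟨g, hg, fun i hi t => ?_⟩
    obtain ⟨l, rfl⟩ := (hs i).1 hi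
    rw [(h2 l t).1, (h2 l t).2, hγ, Units.val_inv_eq_inv_val]
    exact ⟨rfl, rfl⟩

end

section
variable {F : Type} [Field F] [Finite F] {L : Type u} [Group L]

/-- **`E₆(q)`, `9 ∣ q - 1`, `p = 3`** -/
theorem topFac_E6 (𝕜 : Type v) [Field 𝕜] (h : IsChevA E₆ F L) (hs : IsSimpleGroup L)
    (hab : ∃ x y : L, x * y ≠ y * x) (h9 : 9 ∣ Nat.card F - 1) : TopFac 𝕜 3 L := by
  intro G _ _ M ⟨f⟩
  have : Fact (Nat.Prime 3) := ⟨Nat.prime_three⟩
  obtain ⟨ι, hι, C, x, e, m, hC, hsi, he, hpr, hm, hq, hm1, hm2⟩ := exists_data6 h hab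
  obtain ⟨r, hrc⟩ := CharP.exists F
  have hr : Fact r.Prime := ⟨(CharP.char_is_prime_or_zero F r).resolve_right
    (CharP.char_ne_zero_of_finite F r)⟩
  have hC' := CS.map hC f
  have hcen : ∀ g : M, (∀ y, g * y = y * g) → g = 1 := by
    intro g hg
    have h1 := Vale.Agent.P240.R2.H165.XC.centre_of_nonabelian hs hab (f.symm g) (fun y => by
      have h2 := congrArg f.symm (hg (f y))
      rwa [map_mul, map_mul, f.symm_apply_apply] at h2)
    exact (map_eq_one_iff f.symm f.symm.injective).1 h1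
  have hfin := Fintype.ofFinite F
  obtain ⟨η, hη⟩ : ∃ η : Fˣ, orderOf η = 9 := by
    obtain ⟨w, hw⟩ := IsCyclic.exists_generator (α := Fˣ)
    have h1 : orderOf w = Nat.card F - 1 := by
      rw [orderOf_eq_card_of_forall_mem_zpowers hw, Nat.card_units]
    obtain ⟨k, hk⟩ := h9
    have hpos : 0 < orderOf w := orderOf_pos w
    have hk0 : k ≠ 0 := by
      rintro rfl
      rw [h1, hk] at hpos
      simp at hpos
    refine ⟨w ^ k, ?_⟩
    rw [orderOf_pow' w hk0, h1, hk, Nat.gcd_eq_right (Dvd.intro_left 9 rfl)]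
    exact Nat.mul_div_cancel _ (Nat.pos_of_ne_zero hk0)
  have h3r : 3 ≠ r := by
    rintro rfl
    obtain ⟨n, -, hn⟩ := FiniteField.card F 3
    rw [Nat.card_eq_fintype_card, hn] at h9
    have h1 : 3 ∣ 3 ^ (n : ℕ) - 1 := (by norm_num : 3 ∣ 9).trans h9
    have h2 : 3 ∣ 3 ^ (n : ℕ) := dvd_pow_self 3 n.ne_zero
    have h3 : 1 ≤ 3 ^ (n : ℕ) := Nat.one_le_pow _ _ (by norm_num)
    omega
  exact locTopF_full (r := r) 𝕜 hC' (full_E6 hC' hcen he hsi hpr hm hq hm1 hm2 hη) h3r (by norm_num)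
    hcen

end

end Vale.Agent.P240.R2.H630
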