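import Vale.Agent.P240.R2.H165.XG
import Vale.Agent.P240.R2.H281.X1
import Vale.Agent.P240.R2.H281.EB

/-!
The roots of `E₆` as integral vectors of norm `2`; the roots modulo `3`.
-/

set_option autoImplicit false

namespace Vale.Agent.P240.R2.H630

open Subgroup CartanMatrix Vale.Agent.P240.K Vale.Agent.P240.H195 Vale.Agent.P240.R2.H986.X
  Vale.Agent.P240.R2.H165 Vale.Agent.P240.R2.H165.XC

universe u v

/-! ### the quadratic form -/

/-- the quadratic form of `E₆` -/
def qf (v : Fin 6 → ℤ) : ℤ :=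
  2 * (v 0 ^ 2 + v 1 ^ 2 + v 2 ^ 2 + v 3 ^ 2 + v 4 ^ 2 + v 5 ^ 2) -
    2 * (v 0 * v 2 + v 1 * v 3 + v 2 * v 3 + v 3 * v 4 + v 4 * v 5)

lemma qf_sq (v : Fin 6 → ℤ) : 6 * qf v = 3 * (2 * v 0 - v 2) ^ 2 + (3 * v 2 - 2 * v 3) ^ 2 +
    3 * (2 * v 1 - v 3) ^ 2 + 3 * (2 * v 5 - v 4) ^ 2 + (3 * v 4 - 2 * v 3) ^ 2 + v 3 ^ 2 := by
  rw [qf]; ring

lemma qf_nonneg (v : Fin 6 → ℤ) : 0 ≤ qf v := by
  have := qf_sq v
  nlinarith [sq_nonneg (2 * v 0 - v 2), sq_nonneg (3 * v 2 - 2 * v 3), sq_nonneg (2 * v 1 - v 3),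
    sq_nonneg (2 * v 5 - v 4), sq_nonneg (3 * v 4 - 2 * v 3), sq_nonneg (v 3)]

lemma qf_zero {v : Fin 6 → ℤ} (h : qf v = 0) : v = 0 := by
  have h1 := qf_sq v
  rw [h, mul_zero] at h1
  have a1 := sq_nonneg (2 * v 0 - v 2)
  have a2 := sq_nonneg (3 * v 2 - 2 * v 3)
  have a3 := sq_nonneg (2 * v 1 - v 3)
  have a4 := sq_nonneg (2 * v 5 - v 4)
  have a5 := sq_nonneg (3 * v 4 - 2 * v 3)
  have a6 := sq_nonneg (v 3)
  have b1 : 2 * v 0 - v 2 = 0 := pow_eq_zero_iff (two_ne_zero) |>.1 (by linarith)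
  have b2 : 3 * v 2 - 2 * v 3 = 0 := pow_eq_zero_iff (two_ne_zero) |>.1 (by linarith)
  have b3 : 2 * v 1 - v 3 = 0 := pow_eq_zero_iff (two_ne_zero) |>.1 (by linarith)
  have b4 : 2 * v 5 - v 4 = 0 := pow_eq_zero_iff (two_ne_zero) |>.1 (by linarith)
  have b5 : 3 * v 4 - 2 * v 3 = 0 := pow_eq_zero_iff (two_ne_zero) |>.1 (by linarith)
  have b6 : v 3 = 0 := pow_eq_zero_iff (two_ne_zero) |>.1 (by linarith)
  funext i
  fin_cases i <;> simp only [Pi.zero_apply] <;> simp <;> omega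

/-- the reflections preserve the form -/
lemma qf_refl (v : Fin 6 → ℤ) (l : Fin 6) :
    qf (fun i => v i - (∑ m, v m * E₆ m l) * (if i = l then 1 else 0)) = qf v := by
  fin_cases l <;> simp [qf, Fin.sum_univ_six, E₆] <;> ring

/-- vectors of norm `2` that are proportional modulo `3` -/
theorem arith {v w : Fin 6 → ℤ} (hv : qf v = 2) (hw : qf w = 2)
    (h : ∀ i l, (3 : ℤ) ∣ v l * w i - v i * w l) : w = v ∨ w = -v := by
  have hthree : ∀ u : Fin 6 → ℤ, qf u = 2 → ∃ l, ¬ (3 : ℤ) ∣ u l := by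
    intro u hu
    by_contra hcon
    push Not at hcon
    choose c hc using hcon
    have h1 : qf u = 9 * qf c := by
      simp only [qf, hc]
      ring
    omega
  obtain ⟨l, hl⟩ := hthree v hv
  obtain ⟨s, hs⟩ := hthree w hw
  -- the factor `ε`
  obtain ⟨ε, hε, hεd⟩ : ∃ ε : ℤ, (ε = 0 ∨ ε = 1 ∨ ε = -1) ∧ ∀ i, (3 : ℤ) ∣ w i - ε * v i := by
    have h1 : ∀ a : ℤ, ¬ (3 : ℤ) ∣ a → ∀ b : ℤ, ∃ ε : ℤ, (ε = 0 ∨ ε = 1 ∨ ε = -1) ∧
        ∀ x y : ℤ, (3 : ℤ) ∣ a * y - x * b → (3 : ℤ) ∣ y - ε * x := by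
      intro a ha b
      have ha' : a % 3 = 1 ∨ a % 3 = 2 := by omega
      have hb' : b % 3 = 0 ∨ b % 3 = 1 ∨ b % 3 = 2 := by omega
      obtain ⟨a', ha''⟩ : ∃ a', a = 3 * a' + a % 3 := ⟨a / 3, by omega⟩
      obtain ⟨b', hb''⟩ : ∃ b', b = 3 * b' + b % 3 := ⟨b / 3, by omega⟩
      rcases ha' with h2 | h2 <;> rcases hb' with h3 | h3 | h3 <;> rw [h2] at ha'' <;>
        rw [h3] at hb''
      · refine ⟨0, by simp, ?_⟩
        rintro x y ⟨c, hc⟩
        exact ⟨c - a' * y + x * b', by rw [ha'', hb''] at hc; linear_combination hc⟩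
      · refine ⟨1, by simp, ?_⟩
        rintro x y ⟨c, hc⟩
        exact ⟨c - a' * y + x * b', by rw [ha'', hb''] at hc; linear_combination hc⟩
      · refine ⟨-1, by simp, ?_⟩
        rintro x y ⟨c, hc⟩
        exact ⟨c - a' * y + x * b' + x, by rw [ha'', hb''] at hc; linear_combination hc⟩
      · refine ⟨0, by simp, ?_⟩
        rintro x y ⟨c, hc⟩
        exact ⟨-(c - a' * y + x * b') + y, by rw [ha'', hb''] at hc; linear_combination -hc⟩
      · refine ⟨-1, by simp, ?_⟩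
        rintro x y ⟨c, hc⟩
        exact ⟨-(c - a' * y + x * b') + y, by rw [ha'', hb''] at hc; linear_combination -hc⟩
      · refine ⟨1, by simp, ?_⟩
        rintro x y ⟨c, hc⟩
        exact ⟨-(c - a' * y + x * b') + y - x, by rw [ha'', hb''] at hc; linear_combination -hc⟩
    obtain ⟨ε, hε, h2⟩ := h1 (v l) hl (w l)
    exact ⟨ε, hε, fun i => h2 (v i) (w i) (h i l)⟩
  choose c hc using hεd
  have hw' : ∀ i, w i = ε * v i + 3 * c i := fun i => by linarith [hc i]
  rcases hε with rfl | rfl | rfl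
  · exfalso
    apply hs
    rw [hw' s]
    exact ⟨c s, by ring⟩
  · left
    have h1 : qf (fun i => w i - v i) = 9 * qf c := by
      simp only [qf, hw']
      ring
    have h2 : qf (fun i => w i - v i) + qf (fun i => w i + v i) = 2 * qf v + 2 * qf w := by
      simp only [qf]
      ring
    have h3 := qf_nonneg (fun i => w i + v i)
    have h4 := qf_nonneg c
    have h5 : qf c = 0 := by omega
    have h6 := qf_zero h5
    funext i
    rw [hw' i, h6]
    simp
  · right
    have h1 : qf (fun i => w i + v i) = 9 * qf c := by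
      simp only [qf, hw']
      ring
    have h2 : qf (fun i => w i - v i) + qf (fun i => w i + v i) = 2 * qf v + 2 * qf w := by
      simp only [qf]
      ring
    have h3 := qf_nonneg (fun i => w i - v i)
    have h4 := qf_nonneg c
    have h5 : qf c = 0 := by omega
    have h6 := qf_zero h5
    funext i
    rw [hw' i, h6]
    simp

lemma three_ndvd {u : Fin 6 → ℤ} (hu : qf u = 2) : ∃ l, ¬ (3 : ℤ) ∣ u l := by
  by_contra hcon
  push Not at hcon
  choose c hc using hcon
  have h1 : qf u = 9 * qf c := by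
    simp only [qf, hc]
    ring
  omega

/-! ### the roots -/

section
variable {F : Type} [Field F] {L : Type u} [Group L]

/-- the abstract relations, with the coordinates of the roots -/
theorem exists_data6 (h : IsChevA E₆ F L) (hab : ∃ x y : L, x * y ≠ y * x) :
    ∃ (ι : Type) (_ : Finite ι) (C : RC ι) (x : ι → F → L) (e : Fin 6 → ι) (m : ι → Fin 6 → ℤ),
      CS C x ∧ (∀ i, C.simp i ↔ ∃ l, e l = i) ∧ Function.Injective e ∧
      (∀ i j, C.pr (e i) (e j) = E₆ i j) ∧ (∀ j k, C.pr j (e k) = ∑ l, m j l * E₆ l k) ∧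
      (∀ j, qf (m j) = 2) ∧ (∀ j k, m k = m j → k = j) ∧ ∀ j k, m k = -m j → k = C.neg j := by
  classical
  obtain ⟨ι, hι, P, _, _, b, e, x, hb, he, hx⟩ := h
  have h0 : ∀ i, e i ∈ b.support := fun i => by
    rw [hb, Finset.mem_map]
    exact ⟨i, Finset.mem_univ i, rfl⟩
  have h0' : ∀ i, i ∈ b.support ↔ ∃ l, e l = i := fun i => by
    rw [hb, Finset.mem_map]
    simp
  let f : Fin 6 → b.support := fun i => ⟨e i, h0 i⟩
  have hf : Function.Bijective f := by
    constructor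
    · intro i j hij
      exact e.injective (congrArg Subtype.val hij)
    · rintro ⟨k, hk⟩
      obtain ⟨i, hi⟩ := (h0' k).1 hk
      exact ⟨i, Subtype.ext hi⟩
  let e' : b.support ≃ Fin 6 := (Equiv.ofBijective f hf).symm
  have he' : ∀ i j, b.cartanMatrix i j = E₆ (e' i) (e' j) := by
    intro i j
    obtain ⟨i, rfl⟩ := e'.symm.surjective i
    obtain ⟨j, rfl⟩ := e'.symm.surjective j
    rw [e'.apply_symm_apply, e'.apply_symm_apply, ← he]
    rfl
  have hB : Conn b.cartanMatrix := E6_conn.transport e' he'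
  obtain ⟨C, hht, hneg, hsr, hsimp, hpr, hc⟩ := Vale.Agent.P240.R2.H281X1.stmtX1 ι _ _ P b
    (nonempty_of_chevRel hx.chevRel hab) (by
      intro p ⟨i, hi, hpi⟩ hst j hj
      exact hB (fun k => p k.1) ⟨⟨i, hi⟩, hpi⟩
        (fun i j hi hij => hst i.1 j.1 i.2 j.2 hi hij) ⟨j, hj⟩)
  have hCS : CS C x := cs_of_chevRel hx.chevRel hht hneg hsr hpr hc
  -- linearity
  have hlin : ∀ (j : ι) (g : Fin 6 → ℤ), P.root j = ∑ l, g l • P.root (e l) → ∀ k,
      P.pairingIn ℤ j (e k) = ∑ l, g l * E₆ l k := by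
    intro j g hg k
    have h1 : P.pairing j (e k) = ∑ l, (g l : ℚ) * P.pairing (e l) (e k) := by
      rw [← P.root_coroot_eq_pairing, hg, map_sum, LinearMap.sum_apply]
      refine Finset.sum_congr rfl fun l _ => ?_
      rw [map_zsmul, LinearMap.smul_apply, P.root_coroot_eq_pairing, zsmul_eq_mul]
    have h2 : ((P.pairingIn ℤ j (e k) : ℤ) : ℚ) = ((∑ l, g l * E₆ l k : ℤ) : ℚ) := by
      have h3 : ∀ i j, ((P.pairingIn ℤ i j : ℤ) : ℚ) = P.pairing i j := fun i j =>
        P.algebraMap_pairingIn ℤ i j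
      rw [h3, h1]
      push_cast
      refine Finset.sum_congr rfl fun l _ => ?_
      rw [← he, h3]
    exact_mod_cast h2
  have key : ∀ j, ∃ g : Fin 6 → ℤ, P.root j = ∑ l, g l • P.root (e l) ∧ qf g = 2 := by
    refine C.gen _ ?_ ?_
    · intro i hi
      obtain ⟨l, rfl⟩ := (h0' i).1 ((hsimp i).1 hi)
      refine ⟨Pi.single l 1, ?_, ?_⟩
      · rw [Finset.sum_eq_single l]
        · simp
        · intro k _ hk
          rw [Pi.single_eq_of_ne hk, zero_smul]
        · intro hl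
          exact absurd (Finset.mem_univ l) hl
      · fin_cases l <;> simp [qf]
    · rintro i j hi ⟨g, hg, hq⟩
      obtain ⟨l, rfl⟩ := (h0' i).1 ((hsimp i).1 hi)
      refine ⟨fun i => g i - (∑ m, g m * E₆ m l) * (if i = l then 1 else 0), ?_, ?_⟩
      · rw [hsr, P.root_reflectionPerm, P.reflection_apply_root]
        have h1 : P.pairing j (e l) = ((∑ m, g m * E₆ m l : ℤ) : ℚ) := by
          rw [← hlin j g hg l]
          exact (P.algebraMap_pairingIn ℤ j (e l)).symm
        rw [h1]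
        have h2 : ∀ k, (g k - (∑ m, g m * E₆ m l) * (if k = l then 1 else 0)) • P.root (e k) =
            g k • P.root (e k) - (if k = l then (∑ m, g m * E₆ m l) • P.root (e k) else 0) := by
          intro k
          rw [sub_smul]
          split_ifs with hk
          · rw [mul_one]
          · rw [mul_zero, zero_smul]
        rw [Finset.sum_congr rfl fun k _ => h2 k, Finset.sum_sub_distrib, ← hg,
          Finset.sum_ite_eq' Finset.univ l, if_pos (Finset.mem_univ l), Int.cast_smul_eq_zsmul]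
      · rw [qf_refl, hq]
  choose m hm hq using key
  refine ⟨ι, hι, C, x, e, m, hCS, fun i => (hsimp i).trans (h0' i), e.injective, fun i j => ?_,
    fun j k => ?_, hq, fun j k hjk => ?_, fun j k hjk => ?_⟩
  · rw [hpr, he]
  · rw [hpr, hlin j (m j) (hm j) k]
  · apply P.root.injective
    rw [hm k, hm j, hjk]
  · apply P.root.injective
    rw [hneg, P.root_reflectionPerm, P.reflection_apply_self, hm k, hm j, hjk,
      ← Finset.sum_neg_distrib]
    refine Finset.sum_congr rfl fun l _ => ?_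
    rw [Pi.neg_apply, neg_smul]

end

end Vale.Agent.P240.R2.H630
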