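import Vale.Agent.P240.R2.H684.X3

/-!
Fixed points of `p`-groups on the unipotent group `U` of a group given by Chevalley's relations.
-/

set_option autoImplicit false

namespace Vale.Agent.P240.R2.H630

open Subgroup Vale.Agent.P240.K Vale.Agent.P240.H195 Vale.Agent.P240.R2.H986.X
  Vale.Agent.P240.R2.H986.X.CS

universe u

section
variable {L : Type*} [Group L] {A : Subgroup L} {p : ℕ}

/-- a `p`-group that normalizes a `p'`-group `V` and leaves the coset `u V` invariant fixes an element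
of it -/
theorem coset_fix [Finite L] [hp : Fact p.Prime] (hA : IsPGroup p A) {V : Subgroup L}
    (hV : ¬ p ∣ Nat.card V) (hn : ∀ a ∈ A, ∀ v ∈ V, a * v * a⁻¹ ∈ V) {u : L}
    (hu : ∀ a ∈ A, u⁻¹ * (a * u * a⁻¹) ∈ V) :
    ∃ v ∈ V, ∀ a ∈ A, a * (u * v) * a⁻¹ = u * v := by
  let _ : MulAction A V :=
    { smul := fun a v => ⟨u⁻¹ * (a.1 * u * a.1⁻¹) * (a.1 * v.1 * a.1⁻¹),
        mul_mem (hu _ a.2) (hn _ a.2 _ v.2)⟩
      one_smul := by
        intro v
        apply Subtype.ext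
        change u⁻¹ * ((1 : L) * u * (1 : L)⁻¹) * ((1 : L) * v.1 * (1 : L)⁻¹) = v.1
        group
      mul_smul := by
        intro a b v
        apply Subtype.ext
        change u⁻¹ * ((a.1 * b.1) * u * (a.1 * b.1)⁻¹) * ((a.1 * b.1) * v.1 * (a.1 * b.1)⁻¹) =
          u⁻¹ * (a.1 * u * a.1⁻¹) *
            (a.1 * (u⁻¹ * (b.1 * u * b.1⁻¹) * (b.1 * v.1 * b.1⁻¹)) * a.1⁻¹)
        group }
  obtain ⟨v, hv⟩ := hA.nonempty_fixed_point_of_prime_not_dvd_card V hV
  refine ⟨v.1, v.2, fun a ha => ?_⟩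
  have h1 := congrArg Subtype.val (hv ⟨a, ha⟩)
  change u⁻¹ * (a * u * a⁻¹) * (a * v.1 * a⁻¹) = v.1 at h1
  calc a * (u * v.1) * a⁻¹ = u * (u⁻¹ * (a * u * a⁻¹) * (a * v.1 * a⁻¹)) := by group
    _ = u * v.1 := by rw [h1]

/-- fixed points in a product -/
theorem prod_fix [Finite L] [hp : Fact p.Prime] (hA : IsPGroup p A) {H K : Subgroup L}
    (hV : ¬ p ∣ Nat.card H) (hnH : ∀ a ∈ A, ∀ v ∈ H, a * v * a⁻¹ ∈ H)
    (hnK : ∀ a ∈ A, ∀ v ∈ K, a * v * a⁻¹ ∈ K) {h k : L} (hh : h ∈ H) (hk : k ∈ K)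
    (hu : ∀ a ∈ A, a * (h * k) * a⁻¹ = h * k) :
    ∃ h' ∈ H, ∃ k' ∈ K, h * k = h' * k' ∧ (∀ a ∈ A, a * h' * a⁻¹ = h') ∧
      ∀ a ∈ A, a * k' * a⁻¹ = k' := by
  have h1 : ∀ a ∈ A, h⁻¹ * (a * h * a⁻¹) ∈ H ⊓ K := by
    intro a ha
    refine mem_inf.2 ⟨mul_mem (inv_mem hh) (hnH a ha h hh), ?_⟩
    have h2 := hu a ha
    have h3 : h⁻¹ * (a * h * a⁻¹) = k * (a * k * a⁻¹)⁻¹ := by
      calc h⁻¹ * (a * h * a⁻¹) = h⁻¹ * (a * (h * k) * a⁻¹) * (a * k * a⁻¹)⁻¹ := by group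
        _ = _ := by rw [h2]; group
    rw [h3]
    exact mul_mem hk (inv_mem (hnK a ha k hk))
  obtain ⟨v, hv, hf⟩ := coset_fix hA (V := H ⊓ K)
    (fun h2 => hV (h2.trans (Subgroup.card_dvd_of_le inf_le_left)))
    (fun a ha v hv => mem_inf.2 ⟨hnH a ha v (mem_inf.1 hv).1, hnK a ha v (mem_inf.1 hv).2⟩) h1
  refine ⟨h * v, mul_mem hh (mem_inf.1 hv).1, v⁻¹ * k, mul_mem (inv_mem (mem_inf.1 hv).2) hk,
    by group, hf, fun a ha => ?_⟩
  have h2 := hu a ha
  have h3 := hf a ha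
  calc a * (v⁻¹ * k) * a⁻¹ = (a * (h * v) * a⁻¹)⁻¹ * (a * (h * k) * a⁻¹) := by group
    _ = v⁻¹ * k := by rw [h2, h3]; group

end

section
variable {ι : Type*} {F : Type*} [Field F] {L : Type*} [Group L] {C : RC ι} {x : ι → F → L}
  {A : Subgroup L} {p : ℕ}

/-- the root group of `j` is centralized by `A` -/
def Triv (x : ι → F → L) (A : Subgroup L) (j : ι) : Prop := ∀ a ∈ A, ∀ t, a * x j t * a⁻¹ = x j t

lemma triv_of_ne (h : CS C x) (hA : A ≤ TT C x) {j : ι} {t : F} (ht : t ≠ 0)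
    (h1 : ∀ a ∈ A, a * x j t * a⁻¹ = x j t) : Triv x A j := by
  intro a ha s
  obtain ⟨c, hc, h2⟩ := h.T_act (hA ha) j
  have h3 : c * t = t := by
    apply h.x_inj (i := j)
    rw [← h2, h1 a ha]
  have h4 : c = 1 := mul_right_cancel₀ ht (by rw [h3, one_mul])
  rw [h2, h4, one_mul]

lemma mem_single (h : CS C x) {i : ι} {g : L} (hg : g ∈ gr x (fun j => j = i)) : ∃ t, g = x i t := by
  induction hg using closure_induction with
  | mem g hg =>
    obtain ⟨j, t, rfl, rfl⟩ := hg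
    exact ⟨t, rfl⟩
  | one => exact ⟨0, (h.x_zero i).symm⟩
  | mul a b _ _ ha hb =>
    obtain ⟨t, rfl⟩ := ha
    obtain ⟨u, rfl⟩ := hb
    exact ⟨t + u, (h.add i t u).symm⟩
  | inv a _ ha =>
    obtain ⟨t, rfl⟩ := ha
    exact ⟨-t, (h.x_neg i t).symm⟩

/-- **the centralizer of `A ≤ T` in `U`** is generated by the root groups centralized by `A` -/
theorem cen_ideal [Finite L] [DecidableEq ι] [hp : Fact p.Prime] (h : CS C x)
    (hA : A ≤ TT C x) (hAp : IsPGroup p A) (r : ℕ) [hr : Fact r.Prime] [CharP F r] (hpr : p ≠ r) :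
    ∀ (n : ℕ) (S : Finset ι), S.card = n → H684.XU.Ideal' C (· ∈ S) → ∀ u ∈ gr x (· ∈ S),
      (∀ a ∈ A, a * u * a⁻¹ = u) → u ∈ gr x (fun j => j ∈ S ∧ Triv x A j) := by
  intro n
  induction n with
  | zero =>
    intro S hS _ u hu _
    rw [Finset.card_eq_zero] at hS
    subst hS
    have h1 : gr x (fun i => i ∈ (∅ : Finset ι)) = ⊥ := by
      rw [eq_bot_iff, gr, closure_le]
      rintro _ ⟨i, t, hi, -⟩
      exact absurd hi (Finset.notMem_empty i)
    rw [h1, mem_bot] at hu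
    rw [hu]
    exact one_mem _
  | succ n ih =>
    intro S hS hI u hu hfix
    have hne : S.Nonempty := by
      rw [← Finset.card_pos]; omega
    obtain ⟨i, hi, hmin⟩ := Finset.exists_min_image S C.ht hne
    have hI' : H684.XU.Ideal' C (· ∈ S.erase i) := by
      refine ⟨fun j hj => hI.1 j (Finset.mem_of_mem_erase hj), ?_⟩
      intro j l k hj hl hk
      have hjS := Finset.mem_of_mem_erase hj
      refine Finset.mem_erase.2 ⟨?_, hI.2 j l k hjS hl hk⟩
      intro he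
      have h1 := (C.cone_ht j l k hk (hI.1 j hjS) hl).1
      have h2 := hmin j hjS
      rw [he] at h1
      omega
    have hX := H684.XU.root_pgroup h r i
    have hn : gr x (fun j => j = i) ≤ normalizer (gr x (· ∈ S.erase i) : Set L) := by
      rw [gr, closure_le]
      rintro _ ⟨j, t, rfl, rfl⟩
      exact H684.XU.mem_norm h hI' (hI.1 j hi) t
    have hsup : gr x (· ∈ S) ≤ gr x (fun j => j = i) ⊔ gr x (· ∈ S.erase i) := by
      rw [gr, closure_le]
      rintro _ ⟨j, t, hj, rfl⟩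
      by_cases hji : j = i
      · have h4 : x j t ∈ gr x (fun j => j = i) := subset_closure ⟨j, t, hji, rfl⟩
        exact mem_sup_left h4
      · have h4 : x j t ∈ gr x (· ∈ S.erase i) :=
          subset_closure ⟨j, t, Finset.mem_erase.2 ⟨hji, hj⟩, rfl⟩
        exact mem_sup_right h4
    obtain ⟨y, hy, z, hz, rfl⟩ : ∃ y ∈ gr x (fun j => j = i), ∃ z ∈ gr x (· ∈ S.erase i),
        u = y * z := by
      have h5 := hsup hu
      rw [← SetLike.mem_coe, Subgroup.coe_mul_of_left_le_normalizer_right _ _ hn] at h5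
      obtain ⟨y, hy, z, hz, hyz⟩ := h5
      exact ⟨y, hy, z, hz, hyz.symm⟩
    have hcard : ¬ p ∣ Nat.card (gr x (fun j => j = i)) := by
      obtain ⟨k, hk⟩ := IsPGroup.iff_card.1 hX
      rw [hk]
      intro h5
      exact hpr ((Nat.prime_dvd_prime_iff_eq hp.out hr.out).1 (hp.out.dvd_of_dvd_pow h5))
    obtain ⟨y', hy', z', hz', he, hfy, hfz⟩ := prod_fix hAp hcard
      (fun a ha v hv => h.T_conj_gr (hA ha) hv) (fun a ha v hv => h.T_conj_gr (hA ha) hv)
      hy hz hfix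
    rw [he]
    refine mul_mem ?_ ?_
    · obtain ⟨t, rfl⟩ := mem_single h hy'
      by_cases ht : t = 0
      · rw [ht, h.x_zero]
        exact one_mem _
      · exact subset_closure ⟨i, t, ⟨hi, triv_of_ne h hA ht hfy⟩, rfl⟩
    · have h6 := ih (S.erase i) (by rw [Finset.card_erase_of_mem hi, hS]; rfl) hI' z' hz' hfz
      exact H684.XU.gr_mono (fun j hj => ⟨Finset.mem_of_mem_erase hj.1, hj.2⟩) h6

/-- the centralizer of `A ≤ T` in `U` -/
theorem cen_U [Finite L] [Finite ι] [hp : Fact p.Prime] (h : CS C x)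
    (hA : A ≤ TT C x) (hAp : IsPGroup p A) (r : ℕ) [hr : Fact r.Prime] [CharP F r] (hpr : p ≠ r)
    {u : L} (hu : u ∈ UU C x) (hf : ∀ a ∈ A, a * u * a⁻¹ = u) :
    u ∈ gr x (fun j => 0 < C.ht j ∧ Triv x A j) := by
  classical
  have := Fintype.ofFinite ι
  have h2 : (fun i => i ∈ Finset.univ.filter (fun i => 0 < C.ht i)) = fun i => 0 < C.ht i := by
    funext i
    simp
  have hI : H684.XU.Ideal' C (· ∈ Finset.univ.filter (fun i => 0 < C.ht i)) := by
    constructor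
    · intro i hi
      exact (Finset.mem_filter.1 hi).2
    · intro i j k hi hj hk
      have hi' := (Finset.mem_filter.1 hi).2
      refine Finset.mem_filter.2 ⟨Finset.mem_univ _, ?_⟩
      have := (C.cone_ht i j k hk hi' hj).1
      omega
  have h1 := cen_ideal h hA hAp r hpr _ (Finset.univ.filter (fun i => 0 < C.ht i)) rfl hI u
    (by rw [h2]; exact hu) hf
  refine H684.XU.gr_mono (fun j hj => ⟨(Finset.mem_filter.1 hj.1).2, hj.2⟩) h1

end

end Vale.Agent.P240.R2.H630
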