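import Vale.Agent.P240.R2.H630.Fix
import Vale.Agent.P240.R2.H986.X.X4
import Vale.Agent.P240.R2.H401.X7a
import Vale.Agent.P240.H195.SLB

/-!
Automorphisms that centralize a `p`-subgroup `A` of `T` which separates the roots.
-/

set_option autoImplicit false

namespace Vale.Agent.P240.R2.H630

open Subgroup Vale.Agent.P240.K Vale.Agent.P240.H195 Vale.Agent.P240.R2.H986.X
  Vale.Agent.P240.R2.H986.X.CS

universe u

section
variable {ι : Type*} {F : Type*} [Field F] {L : Type*} [Group L] {C : RC ι} {x : ι → F → L}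
  {A : Subgroup L} {p : ℕ}

/-- `A ≤ T` separates the roots -/
structure Sep (C : RC ι) (x : ι → F → L) (p : ℕ) (A : Subgroup L) : Prop where
  le : A ≤ TT C x
  pgroup : IsPGroup p A
  reg : ∀ j, ¬ Triv x A j
  sep : ∀ j k, k ≠ j → k ≠ C.neg j → ∃ a ∈ A, (∀ t, a * x j t * a⁻¹ = x j t) ∧
    ∃ t, a * x k t * a⁻¹ ≠ x k t

/-- the elements of `A` that centralize `X_j` -/
def Aj (x : ι → F → L) (A : Subgroup L) (j : ι) : Subgroup L :=
  A ⊓ centralizer {g | ∃ t, g = x j t}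

omit [Field F] in
lemma mem_Aj {a : L} {j : ι} : a ∈ Aj x A j ↔ a ∈ A ∧ ∀ t, a * x j t * a⁻¹ = x j t := by
  rw [Aj, mem_inf, mem_centralizer_iff]
  refine and_congr_right fun _ => ⟨fun h t => ?_, fun h g hg => ?_⟩
  · rw [← h (x j t) ⟨t, rfl⟩]
    group
  · obtain ⟨t, rfl⟩ := hg
    have := h t
    rw [mul_inv_eq_iff_eq_mul] at this
    exact this.symm

lemma mem_cj' {g y : L} {Q : Subgroup L} : y ∈ cj g Q ↔ g⁻¹ * y * g ∈ Q := mem_cj

section
variable [Finite L] [Finite ι] [hp : Fact p.Prime]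
  {r : ℕ} [hr : Fact r.Prime] [CharP F r]

/-- the chambers fixed by `A` -/
theorem chamber (h : CS C x) (hA : Sep C x p A) (hpr : p ≠ r)
    (hb : SB r (BB C x) (NN C x) (UU C x) (SS C x)) {g : L} (hg : A ≤ cj g (BB C x)) :
    ∃ n ∈ NN C x, cj g (BB C x) = cj n (BB C x) := by
  obtain ⟨n, hn, b, hbB, c, hc, rfl⟩ := hb.bruhat g
  obtain ⟨u, hu, t, htB, htN, rfl⟩ := hb.split b hbB
  have hn' : t * n ∈ NN C x := mul_mem htN hn
  set n' := t * n with hn'd
  have e0 : cj (u * t * n * c) (BB C x) = cj (u * n') (BB C x) := by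
    rw [hb.cj_B_eq_iff hr.out]
    have e1 : (u * t * n * c)⁻¹ * (u * n') = c⁻¹ := by rw [hn'd]; group
    rw [e1]
    exact inv_mem hc
  rw [e0] at hg ⊢
  have hT : ∀ a ∈ A, n'⁻¹ * a * n' ∈ TT C x := by
    intro a ha
    have h1 := H684.XB.N_conj_T h (inv_mem hn') (hA.le ha)
    rwa [inv_inv] at h1
  have h1 : ∀ a ∈ A, u⁻¹ * (a * u * a⁻¹) ∈ UU C x ⊓ cj n' (UU C x) := by
    intro a ha
    have h2 : u⁻¹ * (a * u * a⁻¹) ∈ UU C x :=
      mul_mem (inv_mem hu) (h.T_conj_gr (hA.le ha) hu)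
    refine mem_inf.2 ⟨h2, ?_⟩
    rw [mem_cj]
    refine hb.conj_U' hr.out h2 ?_
    have h3 := hg ha
    rw [mem_cj] at h3
    have h4 : n'⁻¹ * (u⁻¹ * (a * u * a⁻¹)) * n' =
        ((u * n')⁻¹ * a * (u * n')) * (n'⁻¹ * a * n')⁻¹ := by group
    rw [h4]
    exact mul_mem h3 (inv_mem (TT_le_BB (hT a ha)))
  have hV : ¬ p ∣ Nat.card (UU C x ⊓ cj n' (UU C x) : Subgroup L) := by
    obtain ⟨k, hk⟩ := IsPGroup.iff_card.1 (hb.pgroup.to_le
      (inf_le_left : UU C x ⊓ cj n' (UU C x) ≤ UU C x))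
    rw [hk]
    intro h5
    exact hpr ((Nat.prime_dvd_prime_iff_eq hp.out hr.out).1 (hp.out.dvd_of_dvd_pow h5))
  have hVn : ∀ a ∈ A, ∀ v ∈ UU C x ⊓ cj n' (UU C x), a * v * a⁻¹ ∈ UU C x ⊓ cj n' (UU C x) := by
    intro a ha v hv
    refine mem_inf.2 ⟨h.T_conj_gr (hA.le ha) (mem_inf.1 hv).1, ?_⟩
    rw [mem_cj]
    have h2 := (mem_inf.1 hv).2
    rw [mem_cj] at h2
    have h3 := h.T_conj_gr (hT a ha) h2
    have e1 : n'⁻¹ * (a * v * a⁻¹) * n' =
        n'⁻¹ * a * n' * (n'⁻¹ * v * n') * (n'⁻¹ * a * n')⁻¹ := by group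
    rw [e1]
    exact h3
  obtain ⟨v, hv, hfix⟩ := coset_fix hA.pgroup hV hVn h1
  have h2 := cen_U h hA.le hA.pgroup r hpr (mul_mem hu (mem_inf.1 hv).1) hfix
  have h3 : gr x (fun j => 0 < C.ht j ∧ Triv x A j) = ⊥ := by
    rw [eq_bot_iff, gr, closure_le]
    rintro _ ⟨i, t, hi, -⟩
    exact absurd hi.2 (hA.reg i)
  rw [h3, mem_bot] at h2
  have h4 : u ∈ cj n' (UU C x) := by
    rw [eq_inv_of_mul_eq_one_left h2]
    exact inv_mem (mem_inf.1 hv).2
  refine ⟨n', hn', ?_⟩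
  rw [cj_mul]
  refine cj_self ?_
  rw [mem_cj] at h4 ⊢
  exact hb.le h4

/-- the centralizer of `A_j` in a conjugate of `U` -/
theorem cen_cj (h : CS C x) (hA : Sep C x p A) (hpr : p ≠ r) {n : L} (hn : n ∈ NN C x) (j : ι) :
    ∃ k : ι, (k = j ∨ k = C.neg j) ∧ ∀ y ∈ cj n (UU C x), (∀ a ∈ Aj x A j, a * y * a⁻¹ = y) →
      ∃ t, y = x k t := by
  obtain ⟨l, hl⟩ := H684.XB.N_act h (inv_mem hn)
  have hT : ∀ a ∈ TT C x, n⁻¹ * a * n ∈ TT C x := by
    intro a ha
    have h1 := H684.XB.N_conj_T h (inv_mem hn) ha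
    rwa [inv_inv] at h1
  have key : ∀ y ∈ cj n (UU C x), (∀ a ∈ Aj x A j, a * y * a⁻¹ = y) →
      y ∈ gr x (fun m => (m = j ∨ m = C.neg j) ∧ 0 < C.ht (wl C l m)) := by
    intro y hy hf
    rw [mem_cj] at hy
    have h1 : cj n⁻¹ (Aj x A j) ≤ TT C x := by
      intro b hb
      rw [mem_cj, inv_inv] at hb
      have h2 := hT _ (hA.le (mem_Aj.1 hb).1)
      have e1 : n⁻¹ * (n * b * n⁻¹) * n = b := by group
      rwa [e1] at h2
    have h2 : IsPGroup p (cj n⁻¹ (Aj x A j)) :=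
      (hA.pgroup.to_le (inf_le_left : Aj x A j ≤ A)).map _
    have h3 := cen_U h h1 h2 r hpr hy (by
      intro b hb
      rw [mem_cj, inv_inv] at hb
      have h4 := hf _ hb
      calc b * (n⁻¹ * y * n) * b⁻¹ = n⁻¹ * ((n * b * n⁻¹) * y * (n * b * n⁻¹)⁻¹) * n := by group
        _ = _ := by rw [h4])
    have h5 : ∀ z ∈ gr x (fun k => 0 < C.ht k ∧ Triv x (cj n⁻¹ (Aj x A j)) k),
        n * z * n⁻¹ ∈ gr x (fun m => (m = j ∨ m = C.neg j) ∧ 0 < C.ht (wl C l m)) := by
      intro z hz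
      refine closure_induction (p := fun z _ => n * z * n⁻¹ ∈
        gr x (fun m => (m = j ∨ m = C.neg j) ∧ 0 < C.ht (wl C l m))) ?_ ?_ ?_ ?_ hz
      · rintro _ ⟨k, t, ⟨hk, hkT⟩, rfl⟩
        obtain ⟨c, hc, hc1⟩ := hl (wl C l.reverse k)
        have h6 := hc1 (c⁻¹ * t)
        rw [inv_inv, wl_rev', mul_inv_cancel_left₀ hc] at h6
        have h7 : n * x k t * n⁻¹ = x (wl C l.reverse k) (c⁻¹ * t) := by
          rw [← h6]; group
        rw [h7]
        refine subset_closure ⟨_, _, ⟨?_, by rw [wl_rev']; exact hk⟩, rfl⟩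
        by_contra hcon
        push Not at hcon
        obtain ⟨a, ha, h8, s, hs⟩ := hA.sep j (wl C l.reverse k) hcon.1 hcon.2
        apply hs
        have haj : a ∈ Aj x A j := mem_Aj.2 ⟨ha, h8⟩
        have h9 := hkT (n⁻¹ * a * n) (by
          rw [mem_cj, inv_inv]
          have e1 : n * (n⁻¹ * a * n) * n⁻¹ = a := by group
          rwa [e1]) (c * s)
        have h10 := hc1 s
        rw [inv_inv, wl_rev'] at h10
        rw [← h10] at h9
        calc a * x (wl C l.reverse k) s * a⁻¹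
            = n * (n⁻¹ * a * n * (n⁻¹ * x (wl C l.reverse k) s * n) * (n⁻¹ * a * n)⁻¹) * n⁻¹ := by
              group
          _ = _ := by rw [h9]; group
      · rw [mul_one, mul_inv_cancel]
        exact one_mem _
      · intro a b _ _ ha hb
        have e1 : n * (a * b) * n⁻¹ = (n * a * n⁻¹) * (n * b * n⁻¹) := by group
        rw [e1]
        exact mul_mem ha hb
      · intro a _ ha
        have e1 : n * a⁻¹ * n⁻¹ = (n * a * n⁻¹)⁻¹ := by group
        rw [e1]
        exact inv_mem ha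
    have h6 := h5 _ h3
    have e1 : n * (n⁻¹ * y * n) * n⁻¹ = y := by group
    rwa [e1] at h6
  by_cases hj : 0 < C.ht (wl C l j)
  · refine ⟨j, Or.inl rfl, fun y hy hf => mem_single h (H684.XU.gr_mono ?_ (key y hy hf))⟩
    rintro m ⟨rfl | rfl, hm⟩
    · rfl
    · rw [wl_neg, C.ht_neg] at hm
      omega
  · refine ⟨C.neg j, Or.inr rfl, fun y hy hf => mem_single h (H684.XU.gr_mono ?_ (key y hy hf))⟩
    rintro m ⟨rfl | rfl, hm⟩
    · exact absurd hm hj
    · rfl

/-- an automorphism that centralizes `A` maps `X_j` to `X_j` or `X_{-j}` -/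
theorem map_root (h : CS C x) (hA : Sep C x p A) (hpr : p ≠ r)
    (hb : SB r (BB C x) (NN C x) (UU C x) (SS C x)) {f : MulAut L} (hf : ∀ a ∈ A, f a = a)
    (j : ι) : ∃ k : ι, (k = j ∨ k = C.neg j) ∧ ∀ t, ∃ t', f (x j t) = x k t' := by
  obtain ⟨n, hn, hj⟩ : ∃ n ∈ NN C x, ∀ t, x j t ∈ cj n (BB C x) := by
    by_cases hj : 0 < C.ht j
    · refine ⟨1, one_mem _, fun t => ?_⟩
      rw [cj_one]
      exact hb.le (x_mem_UU hj t)
    · obtain ⟨l, hls, hl⟩ := C.long
      refine ⟨nl C x l, nl_mem hls, fun t => ?_⟩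
      rw [h.cj_BB hl]
      refine UU_le (C := C.opp) (x_mem_UU (C := C.opp) (i := j) ?_ t)
      have := C.ht_ne j
      change 0 < - C.ht j
      omega
  obtain ⟨g, hg⟩ := hb.exists_conj hr.out f
  have h1 : am f (cj n (BB C x)) = cj (f n * g) (BB C x) := by rw [am_cj, hg, cj_mul]
  have h2 : A ≤ cj (f n * g) (BB C x) := by
    intro a ha
    rw [← h1, ← hf a ha]
    refine apply_mem_am ?_
    rw [mem_cj]
    have h3 := H684.XB.N_conj_T h (inv_mem hn) (hA.le ha)
    rw [inv_inv] at h3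
    exact TT_le_BB h3
  obtain ⟨n', hn', he⟩ := chamber h hA hpr hb h2
  rw [he] at h1
  obtain ⟨k, hk, h3⟩ := cen_cj h hA hpr hn' j
  refine ⟨k, hk, fun t => h3 _ ?_ fun a ha => ?_⟩
  · have h4 : f (x j t) ∈ cj n' (BB C x) := by
      rw [← h1]
      exact apply_mem_am (hj t)
    rw [mem_cj] at h4 ⊢
    refine hb.mem_U hr.out h4 (k := 1) ?_
    have e1 : (n'⁻¹ * f (x j t) * n') ^ r ^ 1 = n'⁻¹ * f (x j t ^ r ^ 1) * n' := by
      have e2 : n'⁻¹ * f (x j t) * n' = n'⁻¹ * f (x j t) * n'⁻¹⁻¹ := by rw [inv_inv]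
      rw [e2, conj_pow, map_pow, inv_inv]
    rw [e1, H684.XU.x_pow h, pow_one, CharP.cast_eq_zero, zero_mul, h.x_zero, map_one, mul_one,
      inv_mul_cancel]
  · obtain ⟨ha1, ha2⟩ := mem_Aj.1 ha
    have h4 := congrArg f (ha2 t)
    rw [map_mul, map_mul, map_inv, hf a ha1] at h4
    exact h4

variable [Finite F]

omit [Finite L] [Finite ι] hp hr [CharP F r] [Finite F] in
lemma x_ne_neg (h : CS C x) {j : ι} {t s : F} (e : x j t = x (C.neg j) s) : t = 0 := by
  have key : ∀ i : ι, 0 < C.ht i → ∀ t s : F, x i t = x (C.neg i) s → t = 0 ∧ s = 0 := by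
    intro i hi t s e
    have h1 : x (C.neg i) s ∈ UU C x := by rw [← e]; exact x_mem_UU hi t
    have h2 := h.x_not_mem (by rw [C.ht_neg]; omega) h1
    rw [h2, h.x_zero] at e
    exact ⟨h.inj i t e, h2⟩
  by_cases hj : 0 < C.ht j
  · exact (key j hj t s e).1
  · have h1 := C.ht_ne j
    refine (key (C.neg j) (by rw [C.ht_neg]; omega) s t ?_).2
    rw [C.neg_neg]
    exact e.symm

/-- an automorphism of odd order `p` that centralizes `A` preserves the root groups -/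
theorem fix_root (h : CS C x) (hA : Sep C x p A) (hpr : p ≠ r) (hp2 : p ≠ 2)
    (hb : SB r (BB C x) (NN C x) (UU C x) (SS C x)) {f : MulAut L} (hf : ∀ a ∈ A, f a = a)
    (hfp : f ^ p = 1) (j : ι) (t : F) : ∃ t', f (x j t) = x j t' := by
  -- the square
  have h2 : ∀ j t, ∃ t', (f ^ 2) (x j t) = x j t' := by
    intro j t
    obtain ⟨k, hk, h1⟩ := map_root h hA hpr hb hf j
    obtain ⟨t', h2⟩ := h1 t
    obtain ⟨k', hk', h3⟩ := map_root h hA hpr hb hf k
    obtain ⟨t'', h4⟩ := h3 t'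
    have e1 : (f ^ 2) (x j t) = x k' t'' := by
      rw [pow_two, MulAut.mul_apply, h2, h4]
    rcases hk with rfl | rfl
    · rcases hk' with rfl | rfl
      · exact ⟨t'', e1⟩
      · -- `k = j`, `k' = -j`: both maps are onto
        choose φ hφ using h1
        have hinj : Function.Injective φ := by
          intro s s' hs
          have h5 := hφ s
          rw [hs, ← hφ s'] at h5
          exact h.x_inj (f.injective h5)
        obtain ⟨s, hs⟩ := (Finite.injective_iff_surjective.1 hinj) 1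
        obtain ⟨s', hs'⟩ := h3 s
        have h5 := hφ s
        rw [hs, hs'] at h5
        have h6 := x_ne_neg h h5.symm
        exact absurd h6 one_ne_zero
    · rcases hk' with rfl | rfl
      · choose φ hφ using h1
        have hinj : Function.Injective φ := by
          intro s s' hs
          have h5 := hφ s
          rw [hs, ← hφ s'] at h5
          exact h.x_inj (f.injective h5)
        obtain ⟨s', hs'⟩ := h3 1
        obtain ⟨s, hs⟩ := (Finite.injective_iff_surjective.1 hinj) s'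
        have h5 := hφ s
        rw [hs, ← hs'] at h5
        have h6 := f.injective h5
        have h7 : x (C.neg j) 1 = x (C.neg (C.neg j)) s := by rw [C.neg_neg]; exact h6.symm
        exact absurd (x_ne_neg h h7) one_ne_zero
      · exact ⟨t'', by rw [e1, C.neg_neg]⟩
  have h3 : ∀ m : ℕ, ∀ j t, ∃ t', ((f ^ 2) ^ m) (x j t) = x j t' := by
    intro m
    induction m with
    | zero => exact fun j t => ⟨t, by simp⟩
    | succ m ih =>
      intro j t
      obtain ⟨t', ht'⟩ := h2 j t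
      obtain ⟨t'', ht''⟩ := ih j t'
      exact ⟨t'', by rw [pow_succ, MulAut.mul_apply, ht', ht'']⟩
  obtain ⟨m, hm⟩ : ∃ m, p + 1 = 2 * m := by
    obtain ⟨k, hk⟩ := hp.out.odd_of_ne_two hp2
    exact ⟨k + 1, by omega⟩
  have h4 : (f ^ 2) ^ m = f := by
    rw [← pow_mul, ← hm, pow_succ, hfp, one_mul]
  have h5 := h3 m j t
  rwa [h4] at h5

/-- **an automorphism of odd order `p` that centralizes `A`** acts on the root groups by scalars and a
field automorphism -/
theorem al_of_fix (h : CS C x) (hA : Sep C x p A) (hpr : p ≠ r) (hp2 : p ≠ 2)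
    (hcen : ∀ g : L, (∀ y, g * y = y * g) → g = 1) {f : MulAut L} (hf : ∀ a ∈ A, f a = a)
    (hfp : f ^ p = 1) : ∃ (σ : F ≃+* F) (c : ι → F), Al C x f σ c := by
  obtain ⟨hb, hb', hm, hu⟩ := h.data (r := r) hcen
  have key := fix_root h hA hpr hp2 hb hf hfp
  have hgr : ∀ q : ι → Prop, am f (gr x q) = gr x q := by
    intro q
    refine am_eq_of_le ?_
    rw [am, gr, MonoidHom.map_closure, closure_le]
    rintro _ ⟨_, ⟨i, t, hi, rfl⟩, rfl⟩
    obtain ⟨t', ht'⟩ := key i t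
    change f (x i t) ∈ gr x q
    rw [ht']
    exact subset_closure ⟨i, t', hi, rfl⟩
  have hB : am f (BB C x) = BB C x := by
    refine am_eq_of_le fun y hy => ?_
    rw [mem_am, hb.mem_B_iff hr.out] at hy
    rw [hb.mem_B_iff hr.out]
    have h1 := congrArg (am f) hy
    rw [am_cj, ← MulAut.mul_apply, mul_inv_cancel, MulAut.one_apply] at h1
    rw [show am f (UU C x) = UU C x from hgr _] at h1
    exact h1
  have hB' : am f (BB C.opp x) = BB C.opp x := by
    refine am_eq_of_le fun y hy => ?_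
    rw [mem_am, hb'.mem_B_iff hr.out] at hy
    rw [hb'.mem_B_iff hr.out]
    have h1 := congrArg (am f) hy
    rw [am_cj, ← MulAut.mul_apply, mul_inv_cancel, MulAut.one_apply] at h1
    rw [show am f (UU C.opp x) = UU C.opp x from hgr _] at h1
    exact h1
  refine h.x4a hr.out hb hb' hm hu hB hB' ?_
  rintro s ⟨i, hi, rfl⟩
  refine am_eq_of_le ?_
  have h1 : am f (Par (BB C x) (nn C.neg x i 1)) ≤ Par (BB C x) (nn C.neg x i 1) := by
    have h2 : Par (BB C x) (nn C.neg x i 1) = BB C x ⊔ zpowers (nn C.neg x i 1) := rfl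
    rw [am, h2, Subgroup.map_sup]
    refine sup_le ?_ ?_
    · have h3 : am f (BB C x) ≤ BB C x ⊔ zpowers (nn C.neg x i 1) := by
        rw [hB]
        exact le_sup_left
      exact h3
    · rw [MonoidHom.map_zpowers, zpowers_le]
      change f (nn C.neg x i 1) ∈ Par (BB C x) (nn C.neg x i 1)
      rw [nn, map_mul, map_mul]
      obtain ⟨t1, h4⟩ := key i 1
      obtain ⟨t2, h5⟩ := key (C.neg i) (-1⁻¹)
      rw [h4, h5]
      have h6 : x i t1 ∈ Par (BB C x) (nn C.neg x i 1) :=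
        le_Par (hb.le (x_mem_UU (C.simp_pos i hi) t1))
      exact mul_mem (mul_mem h6 (h.x_par hi t2)) h6
  exact h1

end

end

end Vale.Agent.P240.R2.H630
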